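import Vale.Agent.P272.K.IE.Ball
import Vale.Agent.P272.K.V.Final
import Vale.Agent.P272.K.N.Hess
import Vale.Agent.P272.K.EST.Stmt
import Mathlib.Analysis.Calculus.MeanValue

/-! Interior estimates, part 4: block H plugged in; the complex Hessian version on `ℂⁿ`. -/

set_option maxSynthPendingDepth 3

open scoped ContDiff Topology
open Filter Set Metric

noncomputable section

namespace Vale.Agent.P272.K.IE

open Vale.Agent.P272.K Vale.Agent.P272.K.LIN

section
variable {E : Type*} [NormedAddCommGroup E] [NormedSpace ℝ E] [FiniteDimensional ℝ E]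
  {ι : Type*} [Fintype ι]

/-- the operator `B ↦ ∑ B (b i) (b i)` -/
def trb (b : Module.Basis ι ℝ E) : (E →L[ℝ] E →L[ℝ] ℝ) →L[ℝ] ℝ :=
  ∑ i, (ContinuousLinearMap.apply ℝ ℝ (b i)).comp (ContinuousLinearMap.apply ℝ (E →L[ℝ] ℝ) (b i))

omit [FiniteDimensional ℝ E] in
theorem trb_apply (b : Module.Basis ι ℝ E) (B : E →L[ℝ] E →L[ℝ] ℝ) :
    trb b B = ∑ i, B (b i) (b i) := by
  simp [trb, sum_apply]

omit [FiniteDimensional ℝ E] in
theorem trb_pos (b : Module.Basis ι ℝ E) (ξ : E →L[ℝ] ℝ) (hξ : ξ ≠ 0) :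
    0 < trb b (ξ.smulRight ξ) := by
  rw [trb_apply]
  have hnn : ∀ i ∈ (Finset.univ : Finset ι), 0 ≤ (ξ.smulRight ξ) (b i) (b i) := fun i _ => by
    simp only [ContinuousLinearMap.smulRight_apply, smul_apply, smul_eq_mul]
    exact mul_self_nonneg _
  refine lt_of_le_of_ne (Finset.sum_nonneg hnn) fun h => hξ ?_
  have h2 := (Finset.sum_eq_zero_iff_of_nonneg hnn).1 h.symm
  have h3 : (ξ : E →ₗ[ℝ] ℝ) = 0 := b.ext fun i => by
    have := h2 i (Finset.mem_univ i)
    simp only [ContinuousLinearMap.smulRight_apply, smul_apply, smul_eq_mul,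
      mul_self_eq_zero] at this
    simpa using this
  ext x
  simpa using congrArg (fun l : E →ₗ[ℝ] ℝ => l x) h3

/-- Block H for the Laplacian of an arbitrary basis. -/
theorem resH (b : Module.Basis ι ℝ E) {β : ℝ} (hβ0 : 0 < β) (hβ1 : β < 1) : ResH b β := by
  obtain ⟨C, hC, h⟩ := V.const_resolvent' hβ0 hβ1 (trb b) (trb_pos b)
  refine ⟨C, hC, fun f A B hB hf => ?_⟩
  obtain ⟨v, h1, h2, h3⟩ := h 1 le_rfl f A B hB hf
  refine ⟨v, h1, fun x => ?_, by simpa using h3⟩
  have := h2 x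
  rw [trb_apply, one_mul] at this
  exact this

/-- **Interior `C^{2,β}` estimate** for the Laplacian of a basis, unconditional. -/
theorem interior (b : Module.Basis ι ℝ E) {β : ℝ} (hβ0 : 0 < β) (hβ1 : β < 1)
    (p : E) (r R : ℝ) (hrR : r < R) : ∃ C : ℝ, 0 ≤ C ∧
      ∀ (u : E → ℝ) (M : ℝ), 0 ≤ M → Hyp b u p R M →
      HO (closedBall p r) β (fderiv ℝ (fderiv ℝ u)) (C * M) (C * M) :=
  closedBall_est hβ0.le hβ1 (resH b hβ0 hβ1) p r R hrR

end

variable {n : ℕ}

/-- the standard real basis of `ℂⁿ` -/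
def bas (n : ℕ) : Module.Basis ((_ : Fin n) × Fin 2) ℝ (Cm n) :=
  Pi.basis fun _ => Complex.basisOneI

theorem lap_bas (u : Cm n → ℝ) (x : Cm n) : lap (bas n) u x =
    ∑ j, (fderiv ℝ (fderiv ℝ u) x (Pi.single j 1) (Pi.single j 1) +
      fderiv ℝ (fderiv ℝ u) x (Pi.single j Complex.I) (Pi.single j Complex.I)) := by
  rw [lap, Fintype.sum_sigma]
  refine Finset.sum_congr rfl fun j _ => ?_
  rw [Fin.sum_univ_two]
  simp [bas, Pi.basis_apply]

theorem lap_bas_eq {u : Cm n → ℝ} {x : Cm n} (h : DifferentiableAt ℝ (fderiv ℝ u) x) :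
    lap (bas n) u x = 4 * ∑ j, (cHess u x j j).re := by
  rw [lap_bas, N.cHess_eq_lev h, Finset.mul_sum]
  refine Finset.sum_congr rfl fun j _ => ?_
  rw [N.lev_apply]
  have e4 : (4 : ℂ) = ((4:ℝ):ℂ) := by norm_num
  rw [e4]
  simp only [Complex.mul_re, Complex.add_re, Complex.ofReal_re, Complex.ofReal_im, Complex.I_re,
    Complex.I_im, Complex.div_ofReal_re]
  ring

theorem norm_fderiv_le {f : Cm n → ℂ} {z : Cm n} {M : ℝ} (hM : 0 ≤ M)
    (h1 : ∀ k, ‖dz k f z‖ ≤ M) (h2 : ∀ k, ‖dzb k f z‖ ≤ M) : ‖fderiv ℝ f z‖ ≤ 4 * n * M := by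
  set L := fderiv ℝ f z with hL
  have hI : ∀ k, ‖L (Pi.single k 1)‖ ≤ 2 * M ∧ ‖L (Pi.single k Complex.I)‖ ≤ 2 * M := fun k => by
    have e1 : L (Pi.single k 1) = dz k f z + dzb k f z := by
      simp only [dz, dzb, ← hL]; ring
    have e2 : L (Pi.single k Complex.I) = Complex.I * (dz k f z - dzb k f z) := by
      simp only [dz, dzb, ← hL]
      ring_nf
      simp [Complex.I_sq]
    constructor
    · rw [e1]
      calc ‖dz k f z + dzb k f z‖ ≤ ‖dz k f z‖ + ‖dzb k f z‖ := norm_add_le _ _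
        _ ≤ 2 * M := by linarith [h1 k, h2 k]
    · rw [e2, norm_mul, Complex.norm_I, one_mul]
      calc ‖dz k f z - dzb k f z‖ ≤ ‖dz k f z‖ + ‖dzb k f z‖ := norm_sub_le _ _
        _ ≤ 2 * M := by linarith [h1 k, h2 k]
  refine L.opNorm_le_bound (by positivity) fun w => ?_
  have hw : L w = ∑ j, ((w j).re • L (Pi.single j 1) + (w j).im • L (Pi.single j Complex.I)) := by
    conv_lhs => rw [N.decomp w]
    simp only [map_sum, map_add, map_smul]
  rw [hw]
  calc ‖∑ j, ((w j).re • L (Pi.single j 1) + (w j).im • L (Pi.single j Complex.I))‖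
      ≤ ∑ j, ‖(w j).re • L (Pi.single j 1) + (w j).im • L (Pi.single j Complex.I)‖ :=
        norm_sum_le _ _
    _ ≤ ∑ _j : Fin n, 4 * M * ‖w‖ := by
        refine Finset.sum_le_sum fun j _ => ?_
        have hj : ‖w j‖ ≤ ‖w‖ := norm_le_pi_norm w j
        have hr : |(w j).re| ≤ ‖w‖ := (Complex.abs_re_le_norm _).trans hj
        have hi : |(w j).im| ≤ ‖w‖ := (Complex.abs_im_le_norm _).trans hj
        calc ‖(w j).re • L (Pi.single j 1) + (w j).im • L (Pi.single j Complex.I)‖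
            ≤ ‖(w j).re • L (Pi.single j 1)‖ + ‖(w j).im • L (Pi.single j Complex.I)‖ :=
              norm_add_le _ _
          _ = |(w j).re| * ‖L (Pi.single j 1)‖ + |(w j).im| * ‖L (Pi.single j Complex.I)‖ := by
              rw [norm_smul, norm_smul, Real.norm_eq_abs, Real.norm_eq_abs]
          _ ≤ ‖w‖ * (2 * M) + ‖w‖ * (2 * M) := by
              gcongr
              · exact (hI j).1
              · exact (hI j).2
          _ = 4 * M * ‖w‖ := by ring
    _ = 4 * n * M * ‖w‖ := by simp; ring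

/-- The hypotheses on the Laplacian from bounds of the complex Hessian. -/
theorem hyp_of_cHess {u : Cm n → ℝ} {p : Cm n} {R M : ℝ} (hM : 0 ≤ M)
    (hu : ∀ z ∈ ball p R, ContDiffAt ℝ ∞ u z) (hb : ∀ z ∈ ball p R, |u z| ≤ M)
    (h0 : ∀ z ∈ ball p R, ∀ i j, ‖cHess u z i j‖ ≤ M)
    (h1 : ∀ z ∈ ball p R, ∀ i j k, ‖dz k (fun y => cHess u y i j) z‖ ≤ M)
    (h2 : ∀ z ∈ ball p R, ∀ i j k, ‖dzb k (fun y => cHess u y i j) z‖ ≤ M) :
    Hyp (bas n) u p R ((1 + 4 * n + 16 * n ^ 2) * M) := by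
  have hD : ∀ z ∈ ball p R, DifferentiableAt ℝ (fderiv ℝ u) z := fun z hz =>
    ((hu z hz).fderiv_right (m := 1) (by norm_cast)).differentiableAt (by norm_num)
  have hn : (0:ℝ) ≤ n := Nat.cast_nonneg n
  have hlap : ∀ z ∈ ball p R, lap (bas n) u z = 4 * ∑ j, (cHess u z j j).re := fun z hz =>
    lap_bas_eq (hD z hz)
  have hle : ∀ a : ℝ, a ≤ 1 + 4 * n + 16 * n ^ 2 → a * M ≤ (1 + 4 * n + 16 * n ^ 2) * M :=
    fun a ha => mul_le_mul_of_nonneg_right ha hM
  refine ⟨fun z hz => (hu z hz).of_le (by norm_cast), fun z hz => ?_, fun z hz => ?_,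
    fun x hx y hy => ?_⟩
  · refine (hb z hz).trans ?_
    have := hle 1 (by nlinarith [sq_nonneg (n:ℝ)])
    linarith
  · rw [hlap z hz]
    have h3 : |∑ j, (cHess u z j j).re| ≤ n * M := by
      refine (Finset.abs_sum_le_sum_abs _ _).trans ?_
      calc ∑ j, |(cHess u z j j).re| ≤ ∑ _j : Fin n, M :=
            Finset.sum_le_sum fun j _ => (Complex.abs_re_le_norm _).trans (h0 z hz j j)
        _ = n * M := by simp
    have := hle (4 * n) (by nlinarith [sq_nonneg (n:ℝ)])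
    calc |4 * ∑ j, (cHess u z j j).re| = 4 * |∑ j, (cHess u z j j).re| := by
          rw [abs_mul]; norm_num
      _ ≤ 4 * (n * M) := by gcongr
      _ = 4 * n * M := by ring
      _ ≤ _ := this
  · -- Lipschitz bound
    have hcd : ∀ z ∈ ball p R, ∀ j, DifferentiableAt ℝ (fun y => cHess u y j j) z := by
      intro z hz j
      have hsm : ContDiffAt ℝ ∞ (fun y => fderiv ℝ (fderiv ℝ u) y) z :=
        ((hu z hz).fderiv_right (m := ∞) (by norm_cast)).fderiv_right (m := ∞) (by norm_cast)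
      have hDD : DifferentiableAt ℝ (fderiv ℝ (fderiv ℝ u)) z :=
        hsm.differentiableAt (by norm_num)
      have hev : (fun y => cHess u y j j) =ᶠ[𝓝 z] fun y => N.lev (fderiv ℝ (fderiv ℝ u) y) j j := by
        filter_upwards [isOpen_ball.mem_nhds hz] with y hy
        rw [N.cHess_eq_lev (hD y hy)]
      refine DifferentiableAt.congr_of_eventuallyEq ?_ hev
      have hap : ∀ v w : Cm n, DifferentiableAt ℝ
          (fun y => ((fderiv ℝ (fderiv ℝ u) y v w : ℝ) : ℂ)) z := fun v w => by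
        have e1 : DifferentiableAt ℝ (fun y => fderiv ℝ (fderiv ℝ u) y v w) z :=
          (hDD.clm_apply (differentiableAt_const v)).clm_apply (differentiableAt_const w)
        exact Complex.ofRealCLM.differentiableAt.comp z e1
      have e2 : (fun y => N.lev (fderiv ℝ (fderiv ℝ u) y) j j) = fun y =>
          (((fderiv ℝ (fderiv ℝ u) y (Pi.single j 1) (Pi.single j 1) : ℝ) : ℂ) +
            ((fderiv ℝ (fderiv ℝ u) y (Pi.single j Complex.I) (Pi.single j Complex.I) : ℝ) : ℂ) +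
          Complex.I * (((fderiv ℝ (fderiv ℝ u) y (Pi.single j 1) (Pi.single j Complex.I) : ℝ) : ℂ) -
            ((fderiv ℝ (fderiv ℝ u) y (Pi.single j Complex.I) (Pi.single j 1) : ℝ) : ℂ))) / 4 := by
        funext y
        rw [N.lev_apply]
        push_cast
        ring
      rw [e2]
      have e3 := ((hap (Pi.single j 1) (Pi.single j 1)).fun_add
        (hap (Pi.single j Complex.I) (Pi.single j Complex.I))).fun_add
        (((hap (Pi.single j 1) (Pi.single j Complex.I)).fun_sub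
          (hap (Pi.single j Complex.I) (Pi.single j 1))).const_mul Complex.I)
      simpa only [div_eq_mul_inv] using e3.mul_const ((4:ℂ)⁻¹)
    have hlip : ∀ j, ‖cHess u x j j - cHess u y j j‖ ≤ 4 * n * M * ‖x - y‖ := fun j => by
      refine (convex_ball p R).norm_image_sub_le_of_norm_fderiv_le (𝕜 := ℝ)
        (f := fun z => cHess u z j j) (fun z hz => hcd z hz j) (fun z hz => ?_) hy hx
      exact norm_fderiv_le hM (fun k => h1 z hz j j k) fun k => h2 z hz j j k
    rw [hlap x hx, hlap y hy, ← mul_sub, ← Finset.sum_sub_distrib]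
    have h3 : |∑ j, ((cHess u x j j).re - (cHess u y j j).re)| ≤ n * (4 * n * M * ‖x - y‖) := by
      refine (Finset.abs_sum_le_sum_abs _ _).trans ?_
      calc ∑ j, |(cHess u x j j).re - (cHess u y j j).re|
          ≤ ∑ _j : Fin n, 4 * n * M * ‖x - y‖ := Finset.sum_le_sum fun j _ => by
            rw [← Complex.sub_re]
            exact (Complex.abs_re_le_norm _).trans (hlip j)
        _ = n * (4 * n * M * ‖x - y‖) := by simp
    calc |4 * ∑ j, ((cHess u x j j).re - (cHess u y j j).re)|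
        = 4 * |∑ j, ((cHess u x j j).re - (cHess u y j j).re)| := by rw [abs_mul]; norm_num
      _ ≤ 4 * (n * (4 * n * M * ‖x - y‖)) := by gcongr
      _ = (16 * n ^ 2 * M) * ‖x - y‖ := by ring
      _ ≤ _ := by
        refine mul_le_mul_of_nonneg_right (hle _ ?_) (norm_nonneg _)
        nlinarith [sq_nonneg (n:ℝ)]

/-- Interior `C^{2,β}` estimate from bounds of `u`, of its complex Hessian and of the first
derivatives of the complex Hessian. -/
theorem interior_cHess (n : ℕ) (p : Cm n) (r R β M : ℝ) (hR : 0 < R) (hrR : r < R) (hβ0 : 0 < β)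
    (hβ1 : β < 1) : ∃ C : ℝ, 0 ≤ C ∧ ∀ u : Cm n → ℝ,
      (∀ z ∈ ball p R, ContDiffAt ℝ ∞ u z) → (∀ z ∈ ball p R, |u z| ≤ M) →
      (∀ z ∈ ball p R, ∀ i j, ‖cHess u z i j‖ ≤ M) →
      (∀ z ∈ ball p R, ∀ i j k, ‖dz k (fun y => cHess u y i j) z‖ ≤ M) →
      (∀ z ∈ ball p R, ∀ i j k, ‖dzb k (fun y => cHess u y i j) z‖ ≤ M) →
      HO (closedBall p r) β (fderiv ℝ (fderiv ℝ u)) C C := by
  rcases lt_or_ge M 0 with hM | hM
  · refine ⟨0, le_rfl, fun u _ hb _ _ _ => ?_⟩
    have := (abs_nonneg _).trans (hb p (mem_ball_self hR))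
    linarith
  · obtain ⟨C, hC, h⟩ := interior (bas n) hβ0 hβ1 p r R hrR
    refine ⟨C * ((1 + 4 * n + 16 * n ^ 2) * M), by positivity, fun u hu hb h0 h1 h2 => ?_⟩
    exact h u _ (by positivity) (hyp_of_cHess hM hu hb h0 h1 h2)

/-- **Block IE.** -/
theorem ie : EST.IEStatement := by
  intro n p r R β M hr hrR hβ0 hβ1
  obtain ⟨C, hC, h⟩ := interior_cHess n p r R β M (hr.trans hrR) hrR hβ0 hβ1
  exact ⟨C, fun u hu hb h0 h1 h2 y hy y' hy' => (h u hu hb h0 h1 h2).hol y hy y' hy'⟩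

end Vale.Agent.P272.K.IE
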