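import Vale.Agent.P272.K.IE.Unit

set_option maxSynthPendingDepth 3

/-! Interior estimates, part 3: scaling, weighted supremum, balls. -/

open scoped ContDiff Topology
open Filter Set Metric

noncomputable section

namespace Vale.Agent.P272.K.IE

open Vale.Agent.P272.K.LIN

variable {E : Type*} [NormedAddCommGroup E] [NormedSpace ℝ E]

theorem hasFDerivAt_scale {V : Type*} [NormedAddCommGroup V] [NormedSpace ℝ V] {g : E → V}
    {x₀ y : E} {d : ℝ} (h : DifferentiableAt ℝ g (x₀ + d • y)) :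
    HasFDerivAt (fun y => g (x₀ + d • y)) (d • fderiv ℝ g (x₀ + d • y)) y := by
  have h1 : HasFDerivAt (fun y : E => x₀ + d • y) (d • ContinuousLinearMap.id ℝ E) y :=
    ((hasFDerivAt_id y).const_smul d).const_add x₀
  have h2 := h.hasFDerivAt.comp y h1
  have h3 : (fderiv ℝ g (x₀ + d • y)).comp (d • ContinuousLinearMap.id ℝ E)
      = d • fderiv ℝ g (x₀ + d • y) := by
    ext v; simp
  rwa [h3] at h2

theorem fderiv2_scale {u : E → ℝ} {x₀ y : E} {d : ℝ} (h : ContDiffAt ℝ 2 u (x₀ + d • y)) :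
    fderiv ℝ (fderiv ℝ fun y => u (x₀ + d • y)) y
      = (d ^ 2) • fderiv ℝ (fderiv ℝ u) (x₀ + d • y) := by
  have hc : ContinuousAt (fun y : E => x₀ + d • y) y := by fun_prop
  have h1 : (fderiv ℝ fun y => u (x₀ + d • y)) =ᶠ[𝓝 y] fun y => d • fderiv ℝ u (x₀ + d • y) := by
    filter_upwards [hc.eventually (h.eventually (by simp))] with z hz
    exact (hasFDerivAt_scale (hz.differentiableAt (by norm_num))).fderiv
  rw [h1.fderiv_eq]
  have h2 : DifferentiableAt ℝ (fderiv ℝ u) (x₀ + d • y) :=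
    (h.fderiv_right (m := 1) (by norm_num)).differentiableAt (by norm_num)
  have h3 := (hasFDerivAt_scale h2).const_smul d
  have h4 : HasFDerivAt (fun y => d • fderiv ℝ u (x₀ + d • y))
    (d • d • fderiv ℝ (fderiv ℝ u) (x₀ + d • y)) y := h3
  rw [h4.fderiv, smul_smul, sq]

variable [FiniteDimensional ℝ E] {ι : Type*} [Fintype ι]

/-- the hypotheses on a ball -/
structure Hyp (b : Module.Basis ι ℝ E) (u : E → ℝ) (x₀ : E) (d M : ℝ) : Prop where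
  c2 : ∀ x ∈ ball x₀ d, ContDiffAt ℝ 2 u x
  bd : ∀ x ∈ ball x₀ d, |u x| ≤ M
  lbd : ∀ x ∈ ball x₀ d, |lap b u x| ≤ M
  llip : ∀ x ∈ ball x₀ d, ∀ y ∈ ball x₀ d, |lap b u x - lap b u y| ≤ M * ‖x - y‖

omit [FiniteDimensional ℝ E] in
theorem Hyp.mono {b : Module.Basis ι ℝ E} {u : E → ℝ} {x₀ x₁ : E} {d d' M : ℝ}
    (h : Hyp b u x₀ d M) (hs : ball x₁ d' ⊆ ball x₀ d) : Hyp b u x₁ d' M :=
  ⟨fun x hx => h.c2 x (hs hx), fun x hx => h.bd x (hs hx), fun x hx => h.lbd x (hs hx),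
    fun x hx y hy => h.llip x (hs hx) y (hs hy)⟩

/-- The scaled form of `unit_est`. -/
theorem scale_est {b : Module.Basis ι ℝ E} {β : ℝ} (hβ0 : 0 ≤ β) (hβ1 : β < 1)
    (hH : ResH b β) : ∀ θ : ℝ, 0 < θ → ∃ C : ℝ, 0 ≤ C ∧ ∀ (u : E → ℝ) (x₀ : E) (d M S : ℝ),
      0 < d → d ≤ 1 → 0 ≤ M → 0 ≤ S → Hyp b u x₀ d M →
      (∀ x ∈ ball x₀ d, ‖fderiv ℝ (fderiv ℝ u) x‖ ≤ S) →
      HO (ball x₀ (d/2)) β (fderiv ℝ (fderiv ℝ u)) (θ * S + C * M / d ^ 2)
        ((θ * S + C * M / d ^ 2) * d ^ (-β)) := by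
  intro θ hθ
  obtain ⟨C, hC, h⟩ := unit_est hβ0 hβ1 hH θ hθ
  refine ⟨C, hC, fun u x₀ d M S hd hd1 hM hS hu hSb => ?_⟩
  have hmem : ∀ r : ℝ, ∀ y ∈ ball (0:E) r, x₀ + d • y ∈ ball x₀ (d * r) := fun r y hy => by
    rw [mem_ball, dist_zero_right] at hy
    rw [mem_ball, dist_eq_norm, add_sub_cancel_left, norm_smul, Real.norm_eq_abs, abs_of_pos hd]
    gcongr
  have hmem1 : ∀ y ∈ ball (0:E) 1, x₀ + d • y ∈ ball x₀ d := fun y hy => by
    simpa using hmem 1 y hy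
  set v : E → ℝ := fun y => u (x₀ + d • y) with hv
  have hc2 : ∀ y ∈ ball (0:E) 1, ContDiffAt ℝ 2 v y := fun y hy => by
    have hA : ContDiffAt ℝ 2 (fun y : E => x₀ + d • y) y := by fun_prop
    exact ContDiffAt.comp y (hu.c2 _ (hmem1 y hy)) hA
  have hlap : ∀ y ∈ ball (0:E) 1, lap b v y = d ^ 2 * lap b u (x₀ + d • y) := fun y hy => by
    rw [lap, lap, fderiv2_scale (hu.c2 _ (hmem1 y hy)), Finset.mul_sum]
    simp
  have hd2 : d ^ 2 ≤ 1 := pow_le_one₀ hd.le hd1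
  have key := h v M (d ^ 2 * S) hM (by positivity) hc2 (fun y hy => hu.bd _ (hmem1 y hy))
    (fun y hy => by
      rw [hlap y hy, abs_mul, abs_of_nonneg (sq_nonneg d)]
      calc d ^ 2 * |lap b u (x₀ + d • y)| ≤ 1 * M :=
            mul_le_mul hd2 (hu.lbd _ (hmem1 y hy)) (abs_nonneg _) zero_le_one
        _ = M := one_mul M)
    (fun y hy z hz => by
      rw [hlap y hy, hlap z hz, ← mul_sub, abs_mul, abs_of_nonneg (sq_nonneg d)]
      have h1 := hu.llip _ (hmem1 y hy) _ (hmem1 z hz)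
      have h2 : x₀ + d • y - (x₀ + d • z) = d • (y - z) := by rw [smul_sub]; abel
      rw [h2, norm_smul, Real.norm_eq_abs, abs_of_pos hd] at h1
      calc d ^ 2 * |lap b u (x₀ + d • y) - lap b u (x₀ + d • z)|
          ≤ 1 * (M * (1 * ‖y - z‖)) := by
            refine mul_le_mul hd2 (h1.trans ?_) (abs_nonneg _) zero_le_one
            gcongr
        _ = M * ‖y - z‖ := by ring)
    (fun y hy => by
      rw [fderiv2_scale (hu.c2 _ (hmem1 y hy)), norm_smul, Real.norm_eq_abs,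
        abs_of_nonneg (sq_nonneg d)]
      gcongr
      exact hSb _ (hmem1 y hy))
  have hback : ∀ x ∈ ball x₀ (d/2), ∃ y ∈ ball (0:E) (1/2), x = x₀ + d • y := fun x hx => by
    refine ⟨d⁻¹ • (x - x₀), ?_, ?_⟩
    · rw [mem_ball, dist_zero_right, norm_smul, norm_inv, Real.norm_eq_abs, abs_of_pos hd]
      rw [mem_ball, dist_eq_norm] at hx
      calc d⁻¹ * ‖x - x₀‖ < d⁻¹ * (d / 2) := by gcongr
        _ = 1/2 := by field_simp
    · rw [smul_smul, mul_inv_cancel₀ hd.ne', one_smul]; abel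
  have hhalf : ball (0:E) (1/2) ⊆ ball (0:E) 1 := ball_subset_ball (by norm_num)
  have hD : ∀ y ∈ ball (0:E) (1/2), fderiv ℝ (fderiv ℝ u) (x₀ + d • y)
      = (d ^ 2)⁻¹ • fderiv ℝ (fderiv ℝ v) y := fun y hy => by
    rw [fderiv2_scale (hu.c2 _ (hmem1 y (hhalf hy))), smul_smul, inv_mul_cancel₀ (by positivity),
      one_smul]
  have hconst : (d ^ 2)⁻¹ * (θ * (d ^ 2 * S) + C * M) = θ * S + C * M / d ^ 2 := by
    field_simp
  refine ⟨fun x hx => ?_, fun x hx x' hx' => ?_⟩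
  · obtain ⟨y, hy, rfl⟩ := hback x hx
    rw [hD y hy, norm_smul, norm_inv, Real.norm_eq_abs, abs_of_nonneg (sq_nonneg d), ← hconst]
    gcongr
    exact key.sup y hy
  · obtain ⟨y, hy, rfl⟩ := hback x hx
    obtain ⟨y', hy', rfl⟩ := hback x' hx'
    have h2 : x₀ + d • y - (x₀ + d • y') = d • (y - y') := by rw [smul_sub]; abel
    rw [hD y hy, hD y' hy', ← smul_sub, norm_smul, norm_inv, Real.norm_eq_abs,
      abs_of_nonneg (sq_nonneg d), h2, norm_smul, Real.norm_eq_abs, abs_of_pos hd,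
      Real.mul_rpow hd.le (norm_nonneg _), ← hconst]
    have h3 := key.hol y hy y' hy'
    have h4 : d ^ (-β) * d ^ β = 1 := by rw [← Real.rpow_add hd]; simp
    calc (d ^ 2)⁻¹ * ‖fderiv ℝ (fderiv ℝ v) y - fderiv ℝ (fderiv ℝ v) y'‖
        ≤ (d ^ 2)⁻¹ * ((θ * (d ^ 2 * S) + C * M) * ‖y - y'‖ ^ β) := by gcongr
      _ = (d ^ 2)⁻¹ * (θ * (d ^ 2 * S) + C * M) * (d ^ (-β) * d ^ β) * ‖y - y'‖ ^ β := by
        rw [h4]; ring
      _ = _ := by ring

/-- Interior bound of the second derivatives. -/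
theorem sup_est {b : Module.Basis ι ℝ E} {β : ℝ} (hβ0 : 0 ≤ β) (hβ1 : β < 1)
    (hH : ResH b β) : ∃ C : ℝ, 0 ≤ C ∧ ∀ (u : E → ℝ) (x₀ : E) (d M : ℝ),
      0 < d → d ≤ 1 → 0 ≤ M → Hyp b u x₀ d M →
      ∀ x ∈ ball x₀ (d/2), ‖fderiv ℝ (fderiv ℝ u) x‖ ≤ C * M / d ^ 2 := by
  obtain ⟨C, hC, h⟩ := scale_est hβ0 hβ1 hH (1/8) (by norm_num)
  refine ⟨128 * C, by positivity, fun u x₀ d M hd hd1 hM hu x hx => ?_⟩
  have : ProperSpace E := FiniteDimensional.proper ℝ E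
  set d₁ : ℝ := 3 / 4 * d with hd₁
  set g : E → ℝ := fun y => (d₁ - ‖y - x₀‖) ^ 2 * ‖fderiv ℝ (fderiv ℝ u) y‖ with hg
  have hsub : closedBall x₀ d₁ ⊆ ball x₀ d := closedBall_subset_ball (by rw [hd₁]; linarith)
  have hcont : ContinuousOn g (closedBall x₀ d₁) := by
    intro y hy
    have h1 : ContinuousAt (fderiv ℝ (fderiv ℝ u)) y :=
      (((hu.c2 y (hsub hy)).fderiv_right (m := 1) (by norm_num)).fderiv_right (m := 0)
        (by norm_num)).continuousAt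
    have h2 : ContinuousAt (fun y => ‖fderiv ℝ (fderiv ℝ u) y‖) y := h1.norm
    have h3 : ContinuousAt (fun y => (d₁ - ‖y - x₀‖) ^ 2) y := by fun_prop
    exact (h3.mul h2).continuousWithinAt
  obtain ⟨x₁, hx₁, hmax⟩ := (isCompact_closedBall x₀ d₁).exists_isMaxOn
    ⟨x₀, mem_closedBall_self (by rw [hd₁]; positivity)⟩ hcont
  have hmax' : ∀ y ∈ closedBall x₀ d₁, g y ≤ g x₁ := fun y hy => hmax hy
  have hx₁' : ‖x₁ - x₀‖ ≤ d₁ := by rwa [mem_closedBall, dist_eq_norm] at hx₁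
  have hg0 : ∀ y, 0 ≤ g y := fun y => by simp only [hg]; positivity
  have hgx₁ : g x₁ ≤ 8 * C * M := by
    rcases eq_or_lt_of_le hx₁' with he | hlt
    · have : g x₁ = 0 := by simp [hg, he]
      rw [this]; positivity
    · set δ : ℝ := (d₁ - ‖x₁ - x₀‖) / 2 with hδ
      have hδ0 : 0 < δ := by rw [hδ]; linarith
      have hn := norm_nonneg (x₁ - x₀)
      have hδ1 : δ ≤ 1 := by rw [hδ, hd₁]; linarith
      have hball : ∀ y ∈ ball x₁ δ, ‖y - x₀‖ ≤ d₁ - δ := fun y hy => by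
        rw [mem_ball, dist_eq_norm] at hy
        calc ‖y - x₀‖ = ‖(y - x₁) + (x₁ - x₀)‖ := by congr 1; abel
          _ ≤ ‖y - x₁‖ + ‖x₁ - x₀‖ := norm_add_le _ _
          _ ≤ d₁ - δ := by rw [hδ] at hy ⊢; linarith
      have hsub' : ball x₁ δ ⊆ closedBall x₀ d₁ := fun y hy => by
        rw [mem_closedBall, dist_eq_norm]; linarith [hball y hy]
      have hS : ∀ y ∈ ball x₁ δ, ‖fderiv ℝ (fderiv ℝ u) y‖ ≤ g x₁ / δ ^ 2 := fun y hy => by
        rw [le_div_iff₀ (by positivity)]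
        have h1 := hball y hy
        have h2 : δ ^ 2 ≤ (d₁ - ‖y - x₀‖) ^ 2 := by
          gcongr; linarith
        calc ‖fderiv ℝ (fderiv ℝ u) y‖ * δ ^ 2 ≤ ‖fderiv ℝ (fderiv ℝ u) y‖ * (d₁ - ‖y - x₀‖) ^ 2 := by
              gcongr
          _ = g y := by rw [hg]; ring
          _ ≤ g x₁ := hmax' y (hsub' hy)
      have h3 := (h u x₁ δ M (g x₁ / δ ^ 2) hδ0 hδ1 hM (div_nonneg (hg0 _) (by positivity))
        (hu.mono (hsub'.trans hsub)) hS).sup x₁ (mem_ball_self (by positivity))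
      have h4 : g x₁ = 4 * δ ^ 2 * ‖fderiv ℝ (fderiv ℝ u) x₁‖ := by
        rw [hg]; simp only [hδ]; ring
      have h5 : 4 * δ ^ 2 * ‖fderiv ℝ (fderiv ℝ u) x₁‖ ≤
          4 * δ ^ 2 * (1 / 8 * (g x₁ / δ ^ 2) + C * M / δ ^ 2) := by gcongr
      have h6 : 4 * δ ^ 2 * (1 / 8 * (g x₁ / δ ^ 2) + C * M / δ ^ 2) = g x₁ / 2 + 4 * (C * M) := by
        field_simp
        ring
      rw [← h4, h6] at h5
      linarith
  have hxm : x ∈ closedBall x₀ d₁ := by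
    rw [mem_closedBall]; rw [mem_ball] at hx; rw [hd₁]; linarith
  have h7 := hmax' x hxm
  have h8 : (d / 4) ^ 2 ≤ (d₁ - ‖x - x₀‖) ^ 2 := by
    rw [mem_ball, dist_eq_norm] at hx
    gcongr
    rw [hd₁]; linarith
  have h9 : (d / 4) ^ 2 * ‖fderiv ℝ (fderiv ℝ u) x‖ ≤ 8 * C * M := by
    calc (d / 4) ^ 2 * ‖fderiv ℝ (fderiv ℝ u) x‖ ≤ (d₁ - ‖x - x₀‖) ^ 2 * ‖fderiv ℝ (fderiv ℝ u) x‖ :=
          mul_le_mul_of_nonneg_right h8 (norm_nonneg _)
      _ ≤ _ := h7.trans hgx₁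
  rw [le_div_iff₀ (by positivity)]
  nlinarith

/-- Interior `C^{2,β}` estimate, small balls. -/
theorem ball_est {b : Module.Basis ι ℝ E} {β : ℝ} (hβ0 : 0 ≤ β) (hβ1 : β < 1)
    (hH : ResH b β) (d : ℝ) (hd : 0 < d) (hd1 : d ≤ 1) : ∃ C : ℝ, 0 ≤ C ∧
      ∀ (u : E → ℝ) (x₀ : E) (M : ℝ), 0 ≤ M → Hyp b u x₀ d M →
      HO (ball x₀ (d/4)) β (fderiv ℝ (fderiv ℝ u)) (C * M) (C * M) := by
  obtain ⟨C₁, hC₁, h₁⟩ := sup_est hβ0 hβ1 hH
  obtain ⟨C₂, hC₂, h₂⟩ := scale_est hβ0 hβ1 hH 1 one_pos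
  set K : ℝ := C₁ / d ^ 2 + C₂ / (d/2) ^ 2 with hK
  have hK0 : 0 ≤ K := by positivity
  have hp : 0 ≤ (d/2) ^ (-β) := Real.rpow_nonneg (by positivity) _
  refine ⟨K + K * (d/2) ^ (-β), by positivity, fun u x₀ M hM hu => ?_⟩
  have hS := h₁ u x₀ d M hd hd1 hM hu
  have := h₂ u x₀ (d/2) M (C₁ * M / d ^ 2) (by positivity) (by linarith) hM (by positivity)
    (hu.mono (ball_subset_ball (by linarith))) hS
  have hE : 1 * (C₁ * M / d ^ 2) + C₂ * M / (d/2) ^ 2 = K * M := by rw [hK]; ring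
  rw [hE, show d / 2 / 2 = d / 4 by ring] at this
  refine this.mono ?_ ?_
  · have : 0 ≤ K * (d/2) ^ (-β) * M := by positivity
    linarith
  · have : 0 ≤ K * M := by positivity
    calc K * M * (d/2) ^ (-β) = K * (d/2) ^ (-β) * M := by ring
      _ ≤ _ := by linarith

/-- Interior `C^{2,β}` estimate. -/
theorem closedBall_est {b : Module.Basis ι ℝ E} {β : ℝ} (hβ0 : 0 ≤ β) (hβ1 : β < 1)
    (hH : ResH b β) (p : E) (r R : ℝ) (hrR : r < R) : ∃ C : ℝ, 0 ≤ C ∧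
      ∀ (u : E → ℝ) (M : ℝ), 0 ≤ M → Hyp b u p R M →
      HO (closedBall p r) β (fderiv ℝ (fderiv ℝ u)) (C * M) (C * M) := by
  set d : ℝ := min 1 (R - r) with hd
  have hd0 : 0 < d := lt_min one_pos (by linarith)
  have hd1 : d ≤ 1 := min_le_left _ _
  have hdR : d ≤ R - r := min_le_right _ _
  obtain ⟨C, hC, h⟩ := ball_est hβ0 hβ1 hH d hd0 hd1
  have hp : 0 ≤ (d/4) ^ (-β) := Real.rpow_nonneg (by positivity) _
  refine ⟨C + 2 * C * (d/4) ^ (-β), by positivity, fun u M hM hu => ?_⟩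
  have hsub : ∀ x ∈ closedBall p r, ball x d ⊆ ball p R := fun x hx y hy => by
    rw [mem_closedBall] at hx
    rw [mem_ball] at hy ⊢
    linarith [dist_triangle y x p]
  have hloc : ∀ x ∈ closedBall p r, HO (ball x (d/4)) β (fderiv ℝ (fderiv ℝ u)) (C * M) (C * M) :=
    fun x hx => h u x M hM (hu.mono (hsub x hx))
  have hCM : 0 ≤ C * M := by positivity
  have hsup : ∀ x ∈ closedBall p r, ‖fderiv ℝ (fderiv ℝ u) x‖ ≤ C * M := fun x hx =>
    (hloc x hx).sup x (mem_ball_self (by positivity))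
  refine ⟨fun x hx => (hsup x hx).trans ?_, fun x hx y hy => ?_⟩
  · have : 0 ≤ 2 * C * (d/4) ^ (-β) * M := by positivity
    linarith
  · have hq : 0 ≤ ‖x - y‖ ^ β := Real.rpow_nonneg (norm_nonneg _) _
    rcases lt_or_ge ‖x - y‖ (d/4) with hlt | hge
    · have := (hloc x hx).hol x (mem_ball_self (by positivity)) y (by
        rw [mem_ball, dist_eq_norm, norm_sub_rev]; exact hlt)
      refine this.trans ?_
      have h5 : C * M ≤ (C + 2 * C * (d/4) ^ (-β)) * M := by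
        have : 0 ≤ 2 * C * (d/4) ^ (-β) * M := by positivity
        linarith
      exact mul_le_mul_of_nonneg_right h5 hq
    · have h3 : 1 ≤ (d/4) ^ (-β) * ‖x - y‖ ^ β := by
        rw [Real.rpow_neg (by positivity), ← div_eq_inv_mul,
          le_div_iff₀ (Real.rpow_pos_of_pos (by positivity) _), one_mul]
        exact Real.rpow_le_rpow (by positivity) hge hβ0
      calc ‖fderiv ℝ (fderiv ℝ u) x - fderiv ℝ (fderiv ℝ u) y‖
          ≤ ‖fderiv ℝ (fderiv ℝ u) x‖ + ‖fderiv ℝ (fderiv ℝ u) y‖ := norm_sub_le _ _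
        _ ≤ 2 * (C * M) := by linarith [hsup x hx, hsup y hy]
        _ ≤ 2 * (C * M) * ((d/4) ^ (-β) * ‖x - y‖ ^ β) := le_mul_of_one_le_right (by positivity) h3
        _ = 2 * C * (d/4) ^ (-β) * M * ‖x - y‖ ^ β := by ring
        _ ≤ _ := by
          refine mul_le_mul_of_nonneg_right ?_ hq
          linarith

end Vale.Agent.P272.K.IE
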