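import Vale.Agent.P272.K.LIN.Jet
import Vale.Agent.P272.K.N.MaxP
import Mathlib.Analysis.Calculus.BumpFunction.FiniteDimension
import Mathlib.Analysis.Normed.Module.FiniteDimension

/-! Interior estimates, part 1: the Laplacian of a basis, uniqueness of bounded solutions. -/

open scoped ContDiff Topology
open Filter Set

noncomputable section

namespace Vale.Agent.P272.K.IE

open Vale.Agent.P272.K.LIN

variable {E : Type*} [NormedAddCommGroup E] [NormedSpace ℝ E] {ι : Type*} [Fintype ι]

/-- Sum of the second derivatives of `u` in the directions of the basis `b`. -/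
def lap (b : Module.Basis ι ℝ E) (u : E → ℝ) (x : E) : ℝ :=
  ∑ i, fderiv ℝ (fderiv ℝ u) x (b i) (b i)

theorem lap_sub (b : Module.Basis ι ℝ E) {u v : E → ℝ} {x : E} (hu : ContDiffAt ℝ 2 u x)
    (hv : ContDiffAt ℝ 2 v x) : lap b (fun y => u y - v y) x = lap b u x - lap b v x := by
  have h1 : (fderiv ℝ fun y => u y - v y) =ᶠ[𝓝 x] fun y => fderiv ℝ u y - fderiv ℝ v y := by
    filter_upwards [hu.eventually (by simp), hv.eventually (by simp)] with y hy1 hy2
    exact fderiv_fun_sub (hy1.differentiableAt (by norm_num)) (hy2.differentiableAt (by norm_num))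
  have h2 : fderiv ℝ (fderiv ℝ fun y => u y - v y) x
      = fderiv ℝ (fderiv ℝ u) x - fderiv ℝ (fderiv ℝ v) x := by
    rw [h1.fderiv_eq]
    exact fderiv_fun_sub ((hu.fderiv_right (m := 1) (by norm_num)).differentiableAt (by norm_num))
      ((hv.fderiv_right (m := 1) (by norm_num)).differentiableAt (by norm_num))
  simp [lap, h2, Finset.sum_sub_distrib]

theorem lap_const_mul (b : Module.Basis ι ℝ E) {u : E → ℝ} {x : E} (hu : ContDiffAt ℝ 2 u x)
    (c : ℝ) : lap b (fun y => c * u y) x = c * lap b u x := by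
  have h1 : (fderiv ℝ fun y => c * u y) =ᶠ[𝓝 x] fun y => c • fderiv ℝ u y := by
    filter_upwards [hu.eventually (by simp)] with y hy1
    exact fderiv_const_mul (hy1.differentiableAt (by norm_num)) c
  have h2 : fderiv ℝ (fderiv ℝ fun y => c * u y) x = c • fderiv ℝ (fderiv ℝ u) x := by
    rw [h1.fderiv_eq]
    exact fderiv_fun_const_smul
      ((hu.fderiv_right (m := 1) (by norm_num)).differentiableAt (by norm_num)) c
  simp [lap, h2, Finset.mul_sum]

/-- Product rule for `lap`. -/
theorem lap_mul (b : Module.Basis ι ℝ E) {u v : E → ℝ} {x : E} (hu : ContDiffAt ℝ 2 u x)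
    (hv : ContDiffAt ℝ 2 v x) : lap b (fun y => u y * v y) x =
      u x * lap b v x + 2 * ∑ i, fderiv ℝ u x (b i) * fderiv ℝ v x (b i) + v x * lap b u x := by
  have h1 : (fderiv ℝ fun y => u y * v y) =ᶠ[𝓝 x] fun y => u y • fderiv ℝ v y + v y • fderiv ℝ u y := by
    filter_upwards [hu.eventually (by simp), hv.eventually (by simp)] with y hy1 hy2
    exact fderiv_fun_mul (hy1.differentiableAt (by norm_num)) (hy2.differentiableAt (by norm_num))
  have du : DifferentiableAt ℝ u x := hu.differentiableAt (by norm_num)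
  have dv : DifferentiableAt ℝ v x := hv.differentiableAt (by norm_num)
  have ddu : DifferentiableAt ℝ (fderiv ℝ u) x :=
    (hu.fderiv_right (m := 1) (by norm_num)).differentiableAt (by norm_num)
  have ddv : DifferentiableAt ℝ (fderiv ℝ v) x :=
    (hv.fderiv_right (m := 1) (by norm_num)).differentiableAt (by norm_num)
  have h2 : fderiv ℝ (fderiv ℝ fun y => u y * v y) x =
      (u x • fderiv ℝ (fderiv ℝ v) x + (fderiv ℝ u x).smulRight (fderiv ℝ v x)) +
      (v x • fderiv ℝ (fderiv ℝ u) x + (fderiv ℝ v x).smulRight (fderiv ℝ u x)) := by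
    rw [h1.fderiv_eq]
    rw [fderiv_fun_add (du.fun_smul ddv) (dv.fun_smul ddu), fderiv_fun_smul du ddv,
      fderiv_fun_smul dv ddu]
  simp only [lap, h2]
  simp only [add_apply, smul_apply,
    ContinuousLinearMap.smulRight_apply, smul_eq_mul, Finset.sum_add_distrib, Finset.mul_sum]
  have : ∀ i, fderiv ℝ v x (b i) * fderiv ℝ u x (b i) = fderiv ℝ u x (b i) * fderiv ℝ v x (b i) :=
    fun i => mul_comm _ _
  simp only [this]
  rw [← Finset.mul_sum]
  rw [← Finset.mul_sum, ← Finset.mul_sum]
  ring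

section uniq
variable [FiniteDimensional ℝ E]

/-- coordinate functionals as continuous linear maps -/
def cf (b : Module.Basis ι ℝ E) (j : ι) : E →L[ℝ] ℝ := LinearMap.toContinuousLinearMap (b.coord j)

omit [Fintype ι] in
@[simp] theorem cf_apply (b : Module.Basis ι ℝ E) (j : ι) (x : E) : cf b j x = b.coord j x := rfl

/-- the sum of the squares of the coordinates -/
def phi (b : Module.Basis ι ℝ E) (x : E) : ℝ := ∑ j, (cf b j x) ^ 2

theorem phi_contDiff (b : Module.Basis ι ℝ E) : ContDiff ℝ ∞ (phi b) := by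
  unfold phi
  exact ContDiff.sum fun j _ => (cf b j).contDiff.pow 2

theorem fderiv_phi (b : Module.Basis ι ℝ E) :
    fderiv ℝ (phi b) = fun x => ∑ j, (2 * cf b j x) • cf b j := by
  funext x
  have : HasFDerivAt (phi b) (∑ j, (2 * cf b j x) • cf b j) x := by
    unfold phi
    refine HasFDerivAt.fun_sum fun j _ => ?_
    have := ((cf b j).hasFDerivAt (x := x)).pow 2
    simpa using this
  exact this.fderiv

theorem lap_phi (b : Module.Basis ι ℝ E) (x : E) : lap b (phi b) x = 2 * Fintype.card ι := by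
  have h : fderiv ℝ (fderiv ℝ (phi b)) x = ∑ j, ((2:ℝ) • cf b j).smulRight (cf b j) := by
    rw [fderiv_phi]
    have : HasFDerivAt (fun x => ∑ j, (2 * cf b j x) • cf b j)
        (∑ j, ((2:ℝ) • cf b j).smulRight (cf b j)) x := by
      refine HasFDerivAt.fun_sum fun j _ => ?_
      have h1 : HasFDerivAt (fun x => 2 * cf b j x) ((2:ℝ) • cf b j) x :=
        ((cf b j).hasFDerivAt (x := x)).const_mul 2
      exact h1.smul_const (cf b j)
    exact this.fderiv
  classical
  simp only [lap, h]
  have : ∀ i, (∑ j, ((2:ℝ) • cf b j).smulRight (cf b j)) (b i) (b i) = 2 := by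
    intro i
    rw [sum_apply, sum_apply]
    simp only [ContinuousLinearMap.smulRight_apply, smul_apply, cf_apply,
      smul_eq_mul, Module.Basis.coord_apply, Module.Basis.repr_self]
    rw [Finset.sum_eq_single i]
    · simp
    · intro j _ hj
      simp [hj.symm]
    · simp
  rw [Finset.sum_congr rfl fun i _ => this i]
  simp [mul_comm]

theorem norm_sq_le_phi (b : Module.Basis ι ℝ E) : ∃ C : ℝ, 0 < C ∧ ∀ x, ‖x‖ ^ 2 ≤ C * phi b x := by
  let T := b.equivFunL
  refine ⟨(‖(T.symm : (ι → ℝ) →L[ℝ] E)‖ + 1) ^ 2, by positivity, fun x => ?_⟩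
  have hphi : 0 ≤ phi b x := Finset.sum_nonneg fun j _ => sq_nonneg _
  have h1 : ‖x‖ ≤ ‖(T.symm : (ι → ℝ) →L[ℝ] E)‖ * ‖T x‖ := by
    have := (T.symm : (ι → ℝ) →L[ℝ] E).le_opNorm (T x)
    simpa using this
  have h2 : ‖T x‖ ≤ Real.sqrt (phi b x) := by
    rw [pi_norm_le_iff_of_nonneg (Real.sqrt_nonneg _)]
    intro j
    rw [Real.norm_eq_abs]
    apply Real.abs_le_sqrt
    have : (T x j) = cf b j x := by
      simp [T, Module.Basis.equivFunL]
    rw [this]
    exact Finset.single_le_sum (f := fun j => (cf b j x)^2) (fun j _ => sq_nonneg _) (Finset.mem_univ j)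
  have h3 : ‖x‖ ≤ (‖(T.symm : (ι → ℝ) →L[ℝ] E)‖ + 1) * Real.sqrt (phi b x) := by
    refine h1.trans ?_
    gcongr
    linarith
  calc ‖x‖ ^ 2 ≤ ((‖(T.symm : (ι → ℝ) →L[ℝ] E)‖ + 1) * Real.sqrt (phi b x)) ^ 2 := by gcongr
    _ = _ := by rw [mul_pow, Real.sq_sqrt hphi]

theorem nonpos_of_lap (b : Module.Basis ι ℝ E) {z : E → ℝ} (hz : ContDiff ℝ 2 z) {A : ℝ}
    (hA : ∀ x, |z x| ≤ A) (h : ∀ x, z x = lap b z x) (x : E) : z x ≤ 0 := by
  obtain ⟨C, hC, hC'⟩ := norm_sq_le_phi b
  have key : ∀ ε : ℝ, 0 < ε → z x ≤ ε * (2 * Fintype.card ι + phi b x) := by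
    intro ε hε
    let g : E → ℝ := fun y => z y - ε * phi b y
    have hgc : Continuous g := hz.continuous.sub (continuous_const.mul (phi_contDiff b).continuous)
    have hlim : Tendsto g (cocompact E) atBot := by
      have h1 : Tendsto (fun y : E => ‖y‖ ^ 2) (cocompact E) atTop :=
        (tendsto_pow_atTop two_ne_zero).comp tendsto_norm_cocompact_atTop
      have h2 : Tendsto (fun y : E => A - (ε / C) * ‖y‖ ^ 2) (cocompact E) atBot :=
        (tendsto_atBot_add_const_left _ A (tendsto_neg_atTop_atBot.comp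
          (h1.const_mul_atTop (show 0 < ε / C by positivity)))).congr
            fun y => by simp only [Function.comp]; ring
      refine tendsto_atBot_mono (fun y => ?_) h2
      have := (abs_le.1 (hA y)).2
      have h3 := hC' y
      have h4 : (ε / C) * ‖y‖ ^ 2 ≤ ε * phi b y := by
        calc (ε / C) * ‖y‖ ^ 2 ≤ (ε / C) * (C * phi b y) := by gcongr
          _ = ε * phi b y := by field_simp
      simp only [g]; linarith
    obtain ⟨y, hy⟩ := hgc.exists_forall_ge hlim
    have hphi2 : ContDiff ℝ 2 (phi b) := by exact_mod_cast contDiff_infty.1 (phi_contDiff b) 2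
    have hg2 : ContDiff ℝ 2 g := hz.sub (contDiff_const.mul hphi2)
    have hmax : IsLocalMax g y := Eventually.of_forall hy
    have hlap : lap b g y = lap b z y - ε * (2 * Fintype.card ι) := by
      have := lap_sub b (u := z) (v := fun y => ε * phi b y) (x := y) hz.contDiffAt
        (contDiff_const.mul hphi2).contDiffAt
      rw [lap_const_mul b hphi2.contDiffAt, lap_phi] at this
      exact this
    have hle : lap b g y ≤ 0 := by
      refine Finset.sum_nonpos fun i _ => ?_
      exact N.second_deriv_nonpos (Eventually.of_forall fun w => hg2.differentiable (by norm_num) w)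
        ((hg2.fderiv_right (m := 1) (by norm_num)).differentiable (by norm_num) y) hmax (b i)
    have h5 : z y ≤ ε * (2 * Fintype.card ι) := by rw [h y]; linarith
    have h6 : 0 ≤ phi b y := Finset.sum_nonneg fun j _ => sq_nonneg _
    have h7 := hy x
    simp only [g] at h7
    have : 0 ≤ ε * phi b y := by positivity
    linarith
  by_contra hcon
  push Not at hcon
  have hphi : 0 ≤ phi b x := Finset.sum_nonneg fun j _ => sq_nonneg _
  set K : ℝ := 2 * Fintype.card ι + phi b x with hK
  have hK0 : 0 ≤ K := by positivity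
  have := key (z x / (2 * (K + 1))) (by positivity)
  have h8 : z x / (2 * (K + 1)) * K ≤ z x / 2 := by
    rw [div_mul_eq_mul_div, div_le_div_iff₀ (by positivity) (by norm_num)]
    nlinarith
  linarith

/-- Bounded solutions of `z = Δz` vanish. -/
theorem eq_zero_of_lap (b : Module.Basis ι ℝ E) {z : E → ℝ} (hz : ContDiff ℝ 2 z) {A : ℝ}
    (hA : ∀ x, |z x| ≤ A) (h : ∀ x, z x = lap b z x) (x : E) : z x = 0 := by
  refine le_antisymm (nonpos_of_lap b hz hA h x) ?_
  have := nonpos_of_lap b (z := fun y => (-1:ℝ) * z y) (contDiff_const.mul hz) (A := A)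
    (fun y => by simpa using hA y) (fun y => by rw [lap_const_mul b hz.contDiffAt, ← h y]) x
  linarith

/-- The constant coefficient resolvent estimate for `1 - Δ_b` (block H). -/
def ResH (b : Module.Basis ι ℝ E) (β : ℝ) : Prop :=
  ∃ C : ℝ, 0 ≤ C ∧ ∀ (f : E → ℝ) (A B : ℝ), 0 ≤ B → HB β f A B →
    ∃ v : E → ℝ, ContDiff ℝ 2 v ∧ (∀ x, v x - lap b v x = f x) ∧ ResBd β 1 C (A + B) v

/-- Estimate for bounded `C²` functions. -/
theorem est_bdd {b : Module.Basis ι ℝ E} {β : ℝ} (hH : ResH b β) :
    ∃ C : ℝ, 0 ≤ C ∧ ∀ (w : E → ℝ) (A B K : ℝ), 0 ≤ B → ContDiff ℝ 2 w → (∀ x, |w x| ≤ K) →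
      HB β (fun x => w x - lap b w x) A B →
      HB β (fderiv ℝ (fderiv ℝ w)) (C * (A + B)) (C * (A + B)) := by
  obtain ⟨C, hC, h⟩ := hH
  refine ⟨C, hC, fun w A B K hB hw hK hf => ?_⟩
  obtain ⟨v, hv, hv1, hv2⟩ := h _ A B hB hf
  have hvw : v = w := by
    funext x
    have hb : ∀ x, |v x - w x| ≤ C * (A + B) * 1 ^ (-(1 + β / 2)) + K := fun x => by
      have h1 := hv2.zero.sup x
      have h2 := hK x
      rw [Real.norm_eq_abs] at h1
      calc |v x - w x| ≤ |v x| + |w x| := abs_sub _ _
        _ ≤ _ := add_le_add h1 h2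
    have := eq_zero_of_lap b (z := fun y => v y - w y) (hv.sub hw) hb (fun y => by
      rw [lap_sub b hv.contDiffAt hw.contDiffAt]
      have := hv1 y
      linarith) x
    linarith
  have := hv2.two
  rw [hvw] at this
  simpa using this

end uniq

end Vale.Agent.P272.K.IE
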