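import Vale.Agent.P272.K.IE.Basic

/-! Interior estimates, part 2: the estimate on the unit ball. -/

open scoped ContDiff Topology
open Filter Set Metric

noncomputable section

namespace Vale.Agent.P272.K.IE

open Vale.Agent.P272.K.LIN

/-- `f` is bounded by `A` and `β`-Hölder with constant `B` on `s`. -/
structure HO {E V : Type*} [NormedAddCommGroup E] [NormedAddCommGroup V] (s : Set E) (β : ℝ)
    (f : E → V) (A B : ℝ) : Prop where
  sup : ∀ x ∈ s, ‖f x‖ ≤ A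
  hol : ∀ x ∈ s, ∀ y ∈ s, ‖f x - f y‖ ≤ B * ‖x - y‖ ^ β

section HO
variable {E V : Type*} [NormedAddCommGroup E] [NormedAddCommGroup V] {s : Set E} {β : ℝ}

theorem HO.mono {f : E → V} {A B A' B' : ℝ} (h : HO s β f A B) (hA : A ≤ A') (hB : B ≤ B') :
    HO s β f A' B' :=
  ⟨fun x hx => (h.sup x hx).trans hA, fun x hx y hy => (h.hol x hx y hy).trans (by gcongr)⟩

theorem HO.congr {f g : E → V} {A B : ℝ} (h : HO s β f A B) (hfg : ∀ x ∈ s, f x = g x) :
    HO s β g A B :=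
  ⟨fun x hx => hfg x hx ▸ h.sup x hx, fun x hx y hy => by
    rw [← hfg x hx, ← hfg y hy]; exact h.hol x hx y hy⟩

theorem HO.add {f g : E → V} {A B A' B' : ℝ} (h : HO s β f A B) (h' : HO s β g A' B') :
    HO s β (fun x => f x + g x) (A + A') (B + B') := by
  refine ⟨fun x hx => (norm_add_le _ _).trans (add_le_add (h.sup x hx) (h'.sup x hx)),
    fun x hx y hy => ?_⟩
  calc ‖f x + g x - (f y + g y)‖ = ‖(f x - f y) + (g x - g y)‖ := by congr 1; abel
    _ ≤ ‖f x - f y‖ + ‖g x - g y‖ := norm_add_le _ _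
    _ ≤ _ := by rw [add_mul]; exact add_le_add (h.hol x hx y hy) (h'.hol x hx y hy)

theorem HO.neg {f : E → V} {A B : ℝ} (h : HO s β f A B) : HO s β (fun x => - f x) A B := by
  refine ⟨fun x hx => by simpa using h.sup x hx, fun x hx y hy => ?_⟩
  have : -f x - -f y = -(f x - f y) := by abel
  rw [this, norm_neg]; exact h.hol x hx y hy

theorem HO.sub {f g : E → V} {A B A' B' : ℝ} (h : HO s β f A B) (h' : HO s β g A' B') :
    HO s β (fun x => f x - g x) (A + A') (B + B') := by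
  simpa [sub_eq_add_neg] using h.add h'.neg

theorem HO.zero : HO s β (fun _ : E => (0 : V)) 0 0 := ⟨by simp, by simp⟩

theorem HO.sum {ι : Type*} (t : Finset ι) {f : ι → E → V} {A B : ι → ℝ}
    (h : ∀ i ∈ t, HO s β (f i) (A i) (B i)) :
    HO s β (fun x => ∑ i ∈ t, f i x) (∑ i ∈ t, A i) (∑ i ∈ t, B i) := by
  classical
  induction t using Finset.induction_on with
  | empty => simpa using HO.zero
  | insert a t ha ih =>
    simp only [Finset.sum_insert ha]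
    exact (h a (Finset.mem_insert_self a t)).add
      (ih fun i hi => h i (Finset.mem_insert_of_mem hi))

theorem HO.mul {f g : E → ℝ} {A B A' B' : ℝ} (h : HO s β f A B) (h' : HO s β g A' B')
    (hA : 0 ≤ A) (hB : 0 ≤ B) :
    HO s β (fun x => f x * g x) (A * A') (A * B' + A' * B) := by
  refine ⟨fun x hx => ?_, fun x hx y hy => ?_⟩
  · rw [norm_mul]
    exact mul_le_mul (h.sup x hx) (h'.sup x hx) (norm_nonneg _) hA
  · calc ‖f x * g x - f y * g y‖ = ‖f x * (g x - g y) + (f x - f y) * g y‖ := by congr 1; ring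
      _ ≤ ‖f x‖ * ‖g x - g y‖ + ‖f x - f y‖ * ‖g y‖ := by
        refine (norm_add_le _ _).trans ?_
        rw [norm_mul, norm_mul]
      _ ≤ A * (B' * ‖x - y‖ ^ β) + (B * ‖x - y‖ ^ β) * A' := by
        gcongr
        · exact h.sup x hx
        · exact h'.hol x hx y hy
        · exact h.hol x hx y hy
        · exact h'.sup y hy
      _ = _ := by ring

theorem HO.const_mul {f : E → ℝ} {A B : ℝ} (h : HO s β f A B) (c : ℝ) :
    HO s β (fun x => c * f x) (|c| * A) (|c| * B) := by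
  refine ⟨fun x hx => ?_, fun x hx y hy => ?_⟩
  · rw [norm_mul, Real.norm_eq_abs c]
    gcongr
    exact h.sup x hx
  · rw [← mul_sub, norm_mul, Real.norm_eq_abs c, mul_assoc]
    gcongr
    exact h.hol x hx y hy

/-- A bounded Lipschitz function is Hölder. -/
theorem HO.of_lip {f : E → V} {A L : ℝ} (hβ0 : 0 ≤ β) (hβ1 : β ≤ 1) (hL : 0 ≤ L) (hA : 0 ≤ A)
    (h1 : ∀ x ∈ s, ‖f x‖ ≤ A)
    (h2 : ∀ x ∈ s, ∀ y ∈ s, ‖f x - f y‖ ≤ L * ‖x - y‖) : HO s β f A (L + 2 * A) := by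
  refine ⟨h1, fun x hx y hy => ?_⟩
  rcases le_total ‖x - y‖ 1 with h | h
  · have h3 : ‖x - y‖ ≤ ‖x - y‖ ^ β := by
      rcases eq_or_lt_of_le (norm_nonneg (x - y)) with h0 | h0
      · rw [← h0]
        exact Real.rpow_nonneg le_rfl _
      · calc ‖x - y‖ = ‖x - y‖ ^ (1:ℝ) := (Real.rpow_one _).symm
          _ ≤ ‖x - y‖ ^ β := Real.rpow_le_rpow_of_exponent_ge h0 h hβ1
    have h4 : 0 ≤ ‖x - y‖ ^ β := Real.rpow_nonneg (norm_nonneg _) _
    calc ‖f x - f y‖ ≤ L * ‖x - y‖ := h2 x hx y hy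
      _ ≤ L * ‖x - y‖ ^ β := by gcongr
      _ ≤ (L + 2 * A) * ‖x - y‖ ^ β := by gcongr; linarith
  · have h3 : 1 ≤ ‖x - y‖ ^ β := Real.one_le_rpow h hβ0
    calc ‖f x - f y‖ ≤ ‖f x‖ + ‖f y‖ := norm_sub_le _ _
      _ ≤ 2 * A := by linarith [h1 x hx, h1 y hy]
      _ ≤ (L + 2 * A) * 1 := by linarith
      _ ≤ (L + 2 * A) * ‖x - y‖ ^ β := by gcongr

/-- A function with support in the ball of radius `5/8` that is Hölder on the ball of radius
`3/4` is Hölder. -/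
theorem HB.of_HO {f : E → V} {A B : ℝ} (hβ0 : 0 ≤ β) (hβ1 : β ≤ 1) (hA : 0 ≤ A) (hB : 0 ≤ B)
    (h : HO (ball 0 (3/4)) β f A B) (h0 : ∀ x, x ∉ closedBall (0:E) (5/8) → f x = 0) :
    HB β f A (B + 8 * A) := by
  have hsup : ∀ x, ‖f x‖ ≤ A := fun x => by
    by_cases hx : x ∈ closedBall (0:E) (5/8)
    · exact h.sup x (closedBall_subset_ball (by norm_num) hx)
    · rw [h0 x hx]; simpa using hA
  have key : ∀ x y, x ∈ ball (0:E) (3/4) → y ∉ ball (0:E) (3/4) →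
      ‖f x - f y‖ ≤ (B + 8 * A) * ‖x - y‖ ^ β := by
    intro x y hx hy
    have hfy : f y = 0 := h0 y fun hh => hy (closedBall_subset_ball (by norm_num) hh)
    by_cases hx' : x ∈ closedBall (0:E) (5/8)
    · have h1 : (1/8:ℝ) ≤ ‖x - y‖ := by
        rw [mem_closedBall, dist_zero_right] at hx'
        rw [mem_ball, dist_zero_right, not_lt] at hy
        have := norm_sub_norm_le y x
        rw [norm_sub_rev] at this
        linarith
      have h2 : (1/8:ℝ) ≤ ‖x - y‖ ^ β := by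
        calc (1/8:ℝ) = (1/8:ℝ) ^ (1:ℝ) := (Real.rpow_one _).symm
          _ ≤ (1/8:ℝ) ^ β := Real.rpow_le_rpow_of_exponent_ge (by norm_num) (by norm_num) hβ1
          _ ≤ ‖x - y‖ ^ β := Real.rpow_le_rpow (by norm_num) h1 hβ0
      rw [hfy, sub_zero]
      calc ‖f x‖ ≤ A := hsup x
        _ ≤ (B + 8 * A) * (1/8) := by linarith
        _ ≤ _ := by gcongr
    · rw [h0 x hx', hfy]
      simp only [sub_self, norm_zero]
      have : 0 ≤ ‖x - y‖ ^ β := Real.rpow_nonneg (norm_nonneg _) _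
      positivity
  refine ⟨hsup, fun x y => ?_⟩
  by_cases hx : x ∈ ball (0:E) (3/4) <;> by_cases hy : y ∈ ball (0:E) (3/4)
  · refine (h.hol x hx y hy).trans ?_
    have : 0 ≤ ‖x - y‖ ^ β := Real.rpow_nonneg (norm_nonneg _) _
    gcongr; linarith
  · exact key x y hx hy
  · rw [norm_sub_rev, norm_sub_rev x y]; exact key y x hy hx
  · rw [h0 x fun hh => hx (closedBall_subset_ball (by norm_num) hh),
      h0 y fun hh => hy (closedBall_subset_ball (by norm_num) hh)]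
    simp only [sub_self, norm_zero]
    have : 0 ≤ ‖x - y‖ ^ β := Real.rpow_nonneg (norm_nonneg _) _
    positivity

end HO

variable {E : Type*} [NormedAddCommGroup E] [NormedSpace ℝ E]

/-- Interpolation for the first derivative. -/
theorem fderiv_bound {u : E → ℝ} {M S h : ℝ} (hh : 0 < h) (hh' : h ≤ 1/4)
    (hu : ∀ x ∈ ball (0:E) 1, ContDiffAt ℝ 2 u x) (hM : ∀ x ∈ ball (0:E) 1, |u x| ≤ M)
    (hS : ∀ x ∈ ball (0:E) 1, ‖fderiv ℝ (fderiv ℝ u) x‖ ≤ S) (x : E) (hx : x ∈ ball (0:E) (3/4)) :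
    ‖fderiv ℝ u x‖ ≤ 2 * M / h + h * S := by
  have hx1 : x ∈ ball (0:E) 1 := ball_subset_ball (by norm_num) hx
  have hM0 : 0 ≤ M := (abs_nonneg _).trans (hM x hx1)
  have hS0 : 0 ≤ S := le_trans (norm_nonneg (fderiv ℝ (fderiv ℝ u) x)) (hS x hx1)
  have hsub : closedBall x h ⊆ ball (0:E) 1 := by
    intro y hy
    rw [mem_closedBall] at hy
    rw [mem_ball] at hx ⊢
    linarith [dist_triangle y x 0]
  have hmem : ∀ v : E, ‖v‖ ≤ h → x + v ∈ closedBall x h := fun v hv => by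
    simpa [mem_closedBall, dist_eq_norm] using hv
  have hxm : x ∈ closedBall x h := mem_closedBall_self hh.le
  have h1 : ∀ y ∈ closedBall x h, ‖fderiv ℝ u y - fderiv ℝ u x‖ ≤ S * h := by
    intro y hy
    have := (convex_closedBall x h).norm_image_sub_le_of_norm_fderiv_le (𝕜 := ℝ)
      (f := fderiv ℝ u) (C := S) (x := x) (y := y)
      (fun z hz => ((hu z (hsub hz)).fderiv_right (m := 1) (by norm_num)).differentiableAt
        (by norm_num)) (fun z hz => hS z (hsub hz)) hxm hy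
    refine this.trans ?_
    gcongr
    simpa [dist_eq_norm] using hy
  have h2 : ∀ v : E, ‖v‖ ≤ h → |fderiv ℝ u x v| ≤ 2 * M + S * h * h := by
    intro v hv
    have := (convex_closedBall x h).norm_image_sub_le_of_norm_fderiv_le' (𝕜 := ℝ)
      (f := u) (C := S * h) (x := x) (y := x + v) (φ := fderiv ℝ u x)
      (fun z hz => (hu z (hsub hz)).differentiableAt (by norm_num)) h1 hxm (hmem v hv)
    rw [add_sub_cancel_left, Real.norm_eq_abs] at this
    have h3 := hM _ (hsub (hmem v hv))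
    have h4 := hM x hx1
    have h5 : S * h * ‖v‖ ≤ S * h * h := by gcongr
    rw [abs_le] at *
    constructor <;> linarith
  refine ContinuousLinearMap.opNorm_le_bound _ (by positivity) fun v => ?_
  rcases eq_or_ne v 0 with rfl | hv
  · simp
  have hvn : 0 < ‖v‖ := norm_pos_iff.2 hv
  have h6 := h2 ((h / ‖v‖) • v) (by
    rw [norm_smul, Real.norm_eq_abs, abs_of_pos (by positivity), div_mul_cancel₀ _ hvn.ne'])
  rw [map_smul, smul_eq_mul, abs_mul, abs_of_pos (by positivity : 0 < h / ‖v‖)] at h6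
  rw [Real.norm_eq_abs]
  calc |fderiv ℝ u x v| = (‖v‖ / h) * (h / ‖v‖ * |fderiv ℝ u x v|) := by field_simp
    _ ≤ (‖v‖ / h) * (2 * M + S * h * h) := by gcongr
    _ = _ := by field_simp

/-- Interpolation for the Hölder constant of the first derivative. -/
theorem fderiv_holder {u : E → ℝ} {M S h β : ℝ} (hβ0 : 0 ≤ β) (hβ1 : β ≤ 1) (hh : 0 < h)
    (hh' : h ≤ 1/4)
    (hu : ∀ x ∈ ball (0:E) 1, ContDiffAt ℝ 2 u x) (hM : ∀ x ∈ ball (0:E) 1, |u x| ≤ M)
    (hS : ∀ x ∈ ball (0:E) 1, ‖fderiv ℝ (fderiv ℝ u) x‖ ≤ S) :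
    HO (ball (0:E) (3/4)) β (fderiv ℝ u) (2 * M / h + h * S)
      (S * h ^ (1 - β) + 2 * (2 * M / h + h * S) * h ^ (-β)) := by
  refine ⟨fun x hx => fderiv_bound hh hh' hu hM hS x hx, fun x hx y hy => ?_⟩
  have hx1 : x ∈ ball (0:E) 1 := ball_subset_ball (by norm_num) hx
  have hM0 : 0 ≤ M := (abs_nonneg _).trans (hM x hx1)
  have hS0 : 0 ≤ S := le_trans (norm_nonneg (fderiv ℝ (fderiv ℝ u) x)) (hS x hx1)
  have hsub : ball (0:E) (3/4) ⊆ ball (0:E) 1 := ball_subset_ball (by norm_num)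
  have hp : 0 ≤ ‖x - y‖ ^ β := Real.rpow_nonneg (norm_nonneg _) _
  rcases le_total ‖x - y‖ h with hd | hd
  · have h1 := (convex_ball (0:E) (3/4)).norm_image_sub_le_of_norm_fderiv_le (𝕜 := ℝ)
      (f := fderiv ℝ u) (C := S) (x := y) (y := x)
      (fun z hz => ((hu z (hsub hz)).fderiv_right (m := 1) (by norm_num)).differentiableAt
        (by norm_num)) (fun z hz => hS z (hsub hz)) hy hx
    have h2 : ‖x - y‖ ≤ h ^ (1 - β) * ‖x - y‖ ^ β := by
      rcases eq_or_lt_of_le (norm_nonneg (x - y)) with h0 | h0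
      · rw [← h0]
        have := Real.rpow_nonneg hh.le (1 - β)
        exact mul_nonneg this (Real.rpow_nonneg le_rfl _)
      · calc ‖x - y‖ = ‖x - y‖ ^ (1 - β) * ‖x - y‖ ^ β := by
              rw [← Real.rpow_add h0]; simp
          _ ≤ _ := by gcongr
    calc ‖fderiv ℝ u x - fderiv ℝ u y‖ ≤ S * ‖x - y‖ := h1
      _ ≤ S * (h ^ (1 - β) * ‖x - y‖ ^ β) := by gcongr
      _ = (S * h ^ (1 - β)) * ‖x - y‖ ^ β := by ring
      _ ≤ _ := by
        gcongr
        have := Real.rpow_nonneg hh.le (-β)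
        have : 0 ≤ 2 * (2 * M / h + h * S) * h ^ (-β) := by positivity
        linarith
  · have h3 : 1 ≤ h ^ (-β) * ‖x - y‖ ^ β := by
      rw [Real.rpow_neg hh.le, ← div_eq_inv_mul, le_div_iff₀ (Real.rpow_pos_of_pos hh _), one_mul]
      exact Real.rpow_le_rpow hh.le hd hβ0
    calc ‖fderiv ℝ u x - fderiv ℝ u y‖ ≤ ‖fderiv ℝ u x‖ + ‖fderiv ℝ u y‖ := norm_sub_le _ _
      _ ≤ 2 * (2 * M / h + h * S) := by
        linarith [fderiv_bound hh hh' hu hM hS x hx, fderiv_bound hh hh' hu hM hS y hy]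
      _ ≤ 2 * (2 * M / h + h * S) * (h ^ (-β) * ‖x - y‖ ^ β) := by
        exact le_mul_of_one_le_right (by positivity) h3
      _ = (2 * (2 * M / h + h * S) * h ^ (-β)) * ‖x - y‖ ^ β := by ring
      _ ≤ _ := by
        gcongr
        have := Real.rpow_nonneg hh.le (1 - β)
        have : 0 ≤ S * h ^ (1 - β) := by positivity
        linarith

section unit
variable [FiniteDimensional ℝ E] {ι : Type*} [Fintype ι]

/-- the cutoff function of the unit ball -/
def cut (E : Type*) [NormedAddCommGroup E] [NormedSpace ℝ E] [FiniteDimensional ℝ E] :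
    ContDiffBump (0 : E) := ⟨1/2, 5/8, by norm_num, by norm_num⟩

theorem cut_zero {x : E} (hx : x ∉ ball (0:E) (5/8)) : cut E x = 0 := by
  have : x ∉ Function.support (cut E) := by rw [(cut E).support_eq]; exact hx
  simpa using this

theorem cut_contDiff {n : ℕ∞} : ContDiff ℝ n (cut E : E → ℝ) := (cut E).contDiff

omit [FiniteDimensional ℝ E] in
theorem exists_lip_bound {g : E → ℝ} (hg : ContDiff ℝ 1 g) (hs : HasCompactSupport g) {β : ℝ}
    (hβ0 : 0 ≤ β) (hβ1 : β ≤ 1) (s : Set E) : ∃ a : ℝ, 0 ≤ a ∧ HO s β g a a := by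
  obtain ⟨L, hL⟩ := hg.lipschitzWith_of_hasCompactSupport hs (by norm_num)
  obtain ⟨A, hA⟩ := hg.continuous.bounded_above_of_compact_support hs
  have hA0 : 0 ≤ A := (norm_nonneg _).trans (hA 0)
  refine ⟨L + 2 * A, by positivity, ?_⟩
  refine (HO.of_lip (L := L) (A := A) hβ0 hβ1 L.2 hA0 (fun x _ => hA x) (fun x _ y _ => ?_)).mono
    (by have : (0:ℝ) ≤ L := L.2
        linarith) le_rfl
  have := hL.dist_le_mul x y
  rwa [dist_eq_norm, dist_eq_norm] at this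

/-- The estimate on the unit ball with interpolation parameter. -/
theorem unit_est {b : Module.Basis ι ℝ E} {β : ℝ} (hβ0 : 0 ≤ β) (hβ1 : β < 1)
    (hH : ResH b β) : ∀ θ : ℝ, 0 < θ → ∃ C : ℝ, 0 ≤ C ∧ ∀ (u : E → ℝ) (M S : ℝ), 0 ≤ M → 0 ≤ S →
      (∀ x ∈ ball (0:E) 1, ContDiffAt ℝ 2 u x) → (∀ x ∈ ball (0:E) 1, |u x| ≤ M) →
      (∀ x ∈ ball (0:E) 1, |lap b u x| ≤ M) →
      (∀ x ∈ ball (0:E) 1, ∀ y ∈ ball (0:E) 1, |lap b u x - lap b u y| ≤ M * ‖x - y‖) →
      (∀ x ∈ ball (0:E) 1, ‖fderiv ℝ (fderiv ℝ u) x‖ ≤ S) →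
      HO (ball (0:E) (1/2)) β (fderiv ℝ (fderiv ℝ u)) (θ * S + C * M) (θ * S + C * M) := by
  obtain ⟨C₀, hC₀, hest⟩ := est_bdd hH
  set η : E → ℝ := (fun x => cut E x) with hη
  have hηc : ContDiff ℝ ∞ η := cut_contDiff
  have hηs : HasCompactSupport η := (cut E).hasCompactSupport
  have hη3 : ContDiff ℝ 3 η := by exact_mod_cast contDiff_infty.1 hηc 3
  have hη3' : ContDiff ℝ 2 (fderiv ℝ η) := hη3.fderiv_right (m := 2) (by norm_num)
  set s : Set E := ball (0:E) (3/4) with hs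
  have hs1 : s ⊆ ball (0:E) 1 := ball_subset_ball (by norm_num)
  obtain ⟨a₀, ha₀, hη0⟩ := exists_lip_bound (g := η) (by exact_mod_cast contDiff_infty.1 hηc 1) hηs
    hβ0 hβ1.le s
  have h1 : ∀ i, ∃ a : ℝ, 0 ≤ a ∧ HO s β (fun x => fderiv ℝ η x (b i)) a a := fun i => by
    refine exists_lip_bound ?_ ?_ hβ0 hβ1.le s
    · exact (hη3'.of_le (by norm_num)).clm_apply contDiff_const
    · exact (hηs.fderiv (𝕜 := ℝ)).mono' fun x hx => subset_tsupport _ fun h => hx (by simp [h])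
  choose a₁ ha₁ hη1 using h1
  have h2 : ∃ a : ℝ, 0 ≤ a ∧ HO s β (fun x => lap b η x) a a := by
    refine exists_lip_bound ?_ ?_ hβ0 hβ1.le s
    · unfold lap
      refine ContDiff.sum fun i _ => ?_
      exact ((hη3'.fderiv_right (m := 1) (by norm_num)).clm_apply contDiff_const).clm_apply
        contDiff_const
    · exact ((hηs.fderiv (𝕜 := ℝ)).fderiv (𝕜 := ℝ)).mono' fun x hx => subset_tsupport _ fun h =>
        hx (by simp [lap, h])
  obtain ⟨a₂, ha₂, hη2⟩ := h2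
  -- one constant
  set κ : ℝ := ∑ i, ‖b i‖ with hκ
  have hκ0 : 0 ≤ κ := Finset.sum_nonneg fun i _ => norm_nonneg _
  have hbi : ∀ i, ‖b i‖ ≤ κ := fun i =>
    Finset.single_le_sum (f := fun i => ‖b i‖) (fun i _ => norm_nonneg _) (Finset.mem_univ i)
  set T₁ : ℝ := ∑ i, a₁ i with hT₁
  have hT0 : 0 ≤ T₁ := Finset.sum_nonneg fun i _ => ha₁ i
  set K₁ : ℝ := 7 * a₀ + 2 * T₁ * κ + 3 * a₂ with hK₁
  have hK0 : 0 ≤ K₁ := by positivity
  intro θ hθ
  -- choice of `h`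
  obtain ⟨h, hh, hh', hhθ⟩ : ∃ h : ℝ, 0 < h ∧ h ≤ 1/4 ∧ 10 * C₀ * K₁ * (4 * h ^ (1 - β)) ≤ θ := by
    have hq : 0 < θ / (40 * C₀ * K₁ + 1) := by positivity
    refine ⟨min (1/4) ((θ / (40 * C₀ * K₁ + 1)) ^ (1 / (1 - β))),
      lt_min (by norm_num) (Real.rpow_pos_of_pos hq _), min_le_left _ _, ?_⟩
    have h3 : (min (1/4) ((θ / (40 * C₀ * K₁ + 1)) ^ (1 / (1 - β)))) ^ (1 - β)
        ≤ θ / (40 * C₀ * K₁ + 1) := by
      calc _ ≤ ((θ / (40 * C₀ * K₁ + 1)) ^ (1 / (1 - β))) ^ (1 - β) := by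
            refine Real.rpow_le_rpow (le_min (by norm_num) (Real.rpow_nonneg hq.le _))
              (min_le_right _ _) (by linarith)
        _ = _ := by
          rw [← Real.rpow_mul hq.le, one_div_mul_cancel (by linarith), Real.rpow_one]
    calc 10 * C₀ * K₁ * (4 * _) ≤ 10 * C₀ * K₁ * (4 * (θ / (40 * C₀ * K₁ + 1))) := by gcongr
      _ = θ * (40 * C₀ * K₁ / (40 * C₀ * K₁ + 1)) := by ring
      _ ≤ θ * 1 := by
        gcongr
        rw [div_le_one (by positivity)]; linarith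
      _ = θ := mul_one _
  refine ⟨10 * C₀ * K₁ * (1 + 2 / h + 4 / h * h ^ (-β)), by
    have := Real.rpow_nonneg hh.le (-β)
    positivity, ?_⟩
  intro u M S hM0 hS0 hu hM hLM hLL hS
  have hG := fderiv_holder hβ0 hβ1.le hh hh' hu hM hS
  set G₀ : ℝ := 2 * M / h + h * S with hG₀
  set G₁ : ℝ := S * h ^ (1 - β) + 2 * G₀ * h ^ (-β) with hG₁
  have hhp := Real.rpow_nonneg hh.le (-β)
  have hhq := Real.rpow_nonneg hh.le (1 - β)
  have hG00 : 0 ≤ G₀ := by positivity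
  have hG10 : 0 ≤ G₁ := by positivity
  -- the pieces
  have hu_lip : ∀ x ∈ s, ∀ y ∈ s, ‖u x - u y‖ ≤ G₀ * ‖x - y‖ := fun x hx y hy =>
    (convex_ball (0:E) (3/4)).norm_image_sub_le_of_norm_fderiv_le (𝕜 := ℝ)
      (f := u) (C := G₀) (x := y) (y := x)
      (fun z hz => (hu z (hs1 hz)).differentiableAt (by norm_num)) (fun z hz => hG.sup z hz) hy hx
  have p1 : HO s β u M (G₀ + 2 * M) :=
    HO.of_lip hβ0 hβ1.le hG00 hM0 (fun x hx => hM x (hs1 hx)) hu_lip
  have p2 : HO s β (lap b u) M (M + 2 * M) :=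
    HO.of_lip hβ0 hβ1.le hM0 hM0 (fun x hx => hLM x (hs1 hx))
      (fun x hx y hy => hLL x (hs1 hx) y (hs1 hy))
  have p3 := hη0.mul (p1.sub p2) ha₀ ha₀
  have p4 : ∀ i ∈ Finset.univ, HO s β (fun x => fderiv ℝ η x (b i) * fderiv ℝ u x (b i))
      (a₁ i * (κ * G₀)) (a₁ i * (κ * G₁) + κ * G₀ * a₁ i) := fun i _ => by
    refine (hη1 i).mul ⟨fun x hx => ?_, fun x hx y hy => ?_⟩ (ha₁ i) (ha₁ i)
    · calc ‖fderiv ℝ u x (b i)‖ ≤ ‖fderiv ℝ u x‖ * ‖b i‖ := ContinuousLinearMap.le_opNorm _ _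
        _ ≤ G₀ * κ := mul_le_mul (hG.sup x hx) (hbi i) (norm_nonneg _) hG00
        _ = κ * G₀ := mul_comm _ _
    · calc ‖fderiv ℝ u x (b i) - fderiv ℝ u y (b i)‖ = ‖(fderiv ℝ u x - fderiv ℝ u y) (b i)‖ := by
            simp
        _ ≤ ‖fderiv ℝ u x - fderiv ℝ u y‖ * ‖b i‖ := ContinuousLinearMap.le_opNorm _ _
        _ ≤ (G₁ * ‖x - y‖ ^ β) * κ := mul_le_mul (hG.hol x hx y hy) (hbi i) (norm_nonneg _)
            (mul_nonneg hG10 (Real.rpow_nonneg (norm_nonneg _) _))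
        _ = κ * G₁ * ‖x - y‖ ^ β := by ring
  have p5 := (HO.sum Finset.univ p4).const_mul 2
  have p6 := p1.mul hη2 hM0 (by positivity)
  set w : E → ℝ := fun x => η x * u x with hw
  have hη_out : ∀ x, x ∉ closedBall (0:E) (5/8) → η =ᶠ[𝓝 x] fun _ => 0 := fun x hx => by
    filter_upwards [isClosed_closedBall.isOpen_compl.mem_nhds hx] with y hy
    exact cut_zero fun h => hy (ball_subset_closedBall h)
  have hw_out : ∀ x, x ∉ closedBall (0:E) (5/8) → w =ᶠ[𝓝 x] fun _ => 0 := fun x hx => by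
    filter_upwards [hη_out x hx] with y hy
    simp [hw, hy]
  have hη2' : ContDiff ℝ 2 η := by exact_mod_cast contDiff_infty.1 hηc 2
  have hwc : ContDiff ℝ 2 w := by
    rw [contDiff_iff_contDiffAt]
    intro x
    by_cases hx : x ∈ ball (0:E) 1
    · exact hη2'.contDiffAt.mul (hu x hx)
    · exact contDiffAt_const.congr_of_eventuallyEq (hw_out x fun h => hx
        (closedBall_subset_ball (by norm_num) h))
  have hwb : ∀ x, |w x| ≤ M := fun x => by
    by_cases hx : x ∈ ball (0:E) 1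
    · rw [hw, abs_mul]
      calc |η x| * |u x| ≤ 1 * M := by
            refine mul_le_mul ?_ (hM x hx) (abs_nonneg _) zero_le_one
            rw [abs_le]
            exact ⟨by linarith [(cut E).nonneg (x := x)], (cut E).le_one⟩
        _ = M := one_mul _
    · rw [(hw_out x fun h => hx (closedBall_subset_ball (by norm_num) h)).self_of_nhds]
      simpa using hM0
  have hf_eq : ∀ x ∈ s, η x * (u x - lap b u x) - 2 * (∑ i, fderiv ℝ η x (b i) * fderiv ℝ u x (b i))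
      - u x * lap b η x = w x - lap b w x := fun x hx => by
    rw [hw, lap_mul b hη2'.contDiffAt (hu x (hs1 hx))]
    ring
  have hf : HO s β (fun x => w x - lap b w x) (K₁ * (M + G₀ + G₁)) (K₁ * (M + G₀ + G₁)) := by
    refine ((((p3.sub p5).sub p6).congr hf_eq)).mono ?_ ?_
    · rw [abs_of_nonneg (by norm_num : (0:ℝ) ≤ 2), ← Finset.sum_mul, ← hT₁, hK₁]
      nlinarith [mul_nonneg ha₀ hM0, mul_nonneg ha₂ hM0, mul_nonneg ha₀ hG00, mul_nonneg ha₀ hG10,
        mul_nonneg ha₂ hG00, mul_nonneg ha₂ hG10, mul_nonneg (mul_nonneg hT0 hκ0) hM0,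
        mul_nonneg (mul_nonneg hT0 hκ0) hG00, mul_nonneg (mul_nonneg hT0 hκ0) hG10]
    · have : ∑ i, (a₁ i * (κ * G₁) + κ * G₀ * a₁ i) = T₁ * κ * (G₀ + G₁) := by
        calc ∑ i, (a₁ i * (κ * G₁) + κ * G₀ * a₁ i) = ∑ i, a₁ i * (κ * (G₀ + G₁)) :=
              Finset.sum_congr rfl fun i _ => by ring
          _ = (∑ i, a₁ i) * (κ * (G₀ + G₁)) := (Finset.sum_mul _ _ _).symm
          _ = T₁ * κ * (G₀ + G₁) := by rw [hT₁]; ring
      rw [abs_of_nonneg (by norm_num : (0:ℝ) ≤ 2), this, hK₁]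
      nlinarith [mul_nonneg ha₀ hM0, mul_nonneg ha₂ hM0, mul_nonneg ha₀ hG00, mul_nonneg ha₀ hG10,
        mul_nonneg ha₂ hG00, mul_nonneg ha₂ hG10, mul_nonneg (mul_nonneg hT0 hκ0) hM0,
        mul_nonneg (mul_nonneg hT0 hκ0) hG00, mul_nonneg (mul_nonneg hT0 hκ0) hG10]
  set Q : ℝ := K₁ * (M + G₀ + G₁) with hQ
  have hQ0 : 0 ≤ Q := by positivity
  have hfB := HB.of_HO hβ0 hβ1.le hQ0 hQ0 hf (fun x hx => by
    have h0 := hw_out x hx
    have h1 : fderiv ℝ w =ᶠ[𝓝 x] fun _ => 0 := by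
      have := h0.fderiv (𝕜 := ℝ)
      filter_upwards [this] with y hy
      rw [hy]; simp
    rw [h0.self_of_nhds, lap, Finset.sum_eq_zero]
    · simp
    · intro i _
      rw [h1.fderiv_eq]; simp)
  have hD := hest w Q (Q + 8 * Q) M (by positivity) hwc hwb hfB
  have hfin : C₀ * (Q + (Q + 8 * Q)) ≤ θ * S + 10 * C₀ * K₁ * (1 + 2 / h + 4 / h * h ^ (-β)) * M := by
    have e1 : h ≤ h ^ (1 - β) := by
      calc h = h ^ (1:ℝ) := (Real.rpow_one _).symm
        _ ≤ h ^ (1 - β) := Real.rpow_le_rpow_of_exponent_ge hh (by linarith) (by linarith)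
    have e2 : h * h ^ (-β) = h ^ (1 - β) := by
      rw [Real.rpow_sub hh, Real.rpow_one, Real.rpow_neg hh.le, div_eq_mul_inv]
    have e3 : M + G₀ + G₁ ≤ 4 * h ^ (1 - β) * S + (1 + 2 / h + 4 / h * h ^ (-β)) * M := by
      have : 2 * G₀ * h ^ (-β) = 4 / h * h ^ (-β) * M + 2 * h ^ (1 - β) * S := by
        rw [← e2, hG₀]; ring
      rw [hG₁, this, hG₀]
      have : h * S ≤ h ^ (1 - β) * S := by gcongr
      have : 2 * M / h = 2 / h * M := by ring
      rw [this]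
      linarith
    calc C₀ * (Q + (Q + 8 * Q)) = 10 * C₀ * K₁ * (M + G₀ + G₁) := by rw [hQ]; ring
      _ ≤ 10 * C₀ * K₁ * (4 * h ^ (1 - β) * S + (1 + 2 / h + 4 / h * h ^ (-β)) * M) := by gcongr
      _ = (10 * C₀ * K₁ * (4 * h ^ (1 - β))) * S
          + 10 * C₀ * K₁ * (1 + 2 / h + 4 / h * h ^ (-β)) * M := by ring
      _ ≤ _ := by gcongr
  have hDD : ∀ x ∈ ball (0:E) (1/2), fderiv ℝ (fderiv ℝ w) x = fderiv ℝ (fderiv ℝ u) x := fun x hx => by
    have h1 : w =ᶠ[𝓝 x] u := by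
      filter_upwards [isOpen_ball.mem_nhds hx] with y hy
      have : η y = 1 := (cut E).one_of_mem_closedBall (ball_subset_closedBall hy)
      simp [hw, this]
    exact (h1.fderiv (𝕜 := ℝ)).fderiv_eq
  refine ⟨fun x hx => ?_, fun x hx y hy => ?_⟩
  · rw [← hDD x hx]; exact (hD.sup x).trans hfin
  · rw [← hDD x hx, ← hDD y hy]
    refine (hD.hol x y).trans ?_
    have : 0 ≤ ‖x - y‖ ^ β := Real.rpow_nonneg (norm_nonneg _) _
    gcongr

end unit

end Vale.Agent.P272.K.IE
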